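import Crest.Agent.X262.EndsMk.Frm
import Crest.Agent.X277.Res.OutDefs

/-!
# Row 262, road B, ENDS-MK (helper62), part 2: the normal direction along the fibre of a blow-up

`O` has coordinates `t 0, t 1`, `u = t 1 / t 0`, and `r : O → K` kills the coordinates.
* `red_zero`      : a polynomial over `O` which vanishes at `u` reduces to zero;
* `exists_lin`, `exists_pol` : elements of `(t 0, t 1) ^ n` are `t 0 ^ n · P(u)`;
* `red_aeval`     : residues of the values `P(u)`;
* `tan_of_coords` : construction of `Ends.Tan`.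
-/

set_option autoImplicit false
set_option linter.unusedSectionVars false

noncomputable section

namespace Crest.Agent.X262.EndsMk

open Crest.Agent.X277 Crest.Agent.X277.BD Polynomial
open Crest.Agent.X277.Res.Out (Coords Van resDer coe_resDer)
open Crest.Agent.X262.Vb Crest.Agent.X262.Ends
open Set (range)

variable {F K L : Type} [Field F] [Algebra ℂ F] [Field K] [Algebra ℂ K] [Field L] [Algebra ℂ L]
  {O : Subalgebra ℂ F} {t : Fin 2 → F}

theorem red_zero (h : Coords O t) (r : O →ₐ[ℂ] K) (hr : ∀ l, r (h.el l) = 0) {P : O[X]}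
    (hP : aeval (t 1 / t 0) P = 0) : P.map (r : O →+* K) = 0 := by
  obtain ⟨D, hD⟩ := h.exists_der
  have := RingHom.ker_isPrime r
  have : CharZero K := charZero_of_injective_algebraMap (algebraMap ℂ K).injective
  have : CharZero (O ⧸ RingHom.ker r) := RingHom.charZero (RingHom.kerLift (r : O →+* K))
  have h1 : MvPolynomial.eval ![h.el 1, h.el 0] (P.homogenize P.natDegree) = 0 := by
    refine Subtype.ext ?_
    have h2 := eval_homogenize (p := P.map (algebraMap O F)) natDegree_map_le ![t 1, t 0]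
      (h.ne_zero 0)
    rw [homogenize_map, eval_map_algebraMap] at h2
    change algebraMap O F _ = 0
    rw [MvPolynomial.map_eval]
    refine Eq.trans ?_ (h2.trans (mul_eq_zero_of_left hP _))
    congr 2
    funext l
    fin_cases l <;> rfl
  have h2 := Res.P0.map_eq_zero_of_mem (RingHom.ker r) ⊥ ![h.el 1, h.el 0] ![D 1, D 0]
    (fun l j => by fin_cases l <;> fin_cases j <;> simp [hD]) (by simp) bot_le
    (Ideal.span_le.2 (by
      rintro _ ⟨l, rfl⟩
      fin_cases l
      exacts [hr 1, hr 0])) _ _ (isHomogeneous_homogenize P) (h1 ▸ zero_mem _)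
  rw [← homogenize_map, homogenize_eq_zero_iff natDegree_map_le] at h2
  ext i
  rw [coeff_map, coeff_zero]
  exact Ideal.Quotient.eq_zero_iff_mem.1 ((coeff_map _ i).symm.trans (by rw [h2, coeff_zero]))

theorem exists_lin (h : Coords O t) {x : F} (hx : Van O x) :
    ∃ P : O[X], P.natDegree ≤ 1 ∧ x = t 0 * aeval (t 1 / t 0) P := by
  obtain ⟨a, h1, rfl⟩ := h.gen x hx
  refine ⟨C ⟨a 1, h1 1⟩ * X + C ⟨a 0, h1 0⟩, natDegree_linear_le, ?_⟩
  have := h.ne_zero 0
  simp only [Fin.sum_univ_two, map_add, map_mul, aeval_C, aeval_X, Subalgebra.algebraMap_apply]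
  field_simp
  ring

theorem exists_pol (h : Coords O t) {n : ℕ} {x : O} (hx : x ∈ Ideal.span (range h.el) ^ n) :
    ∃ P : O[X], P.natDegree ≤ n ∧ (x : F) = t 0 ^ n * aeval (t 1 / t 0) P := by
  induction hx using Submodule.pow_induction_on_left' with
  | algebraMap x => exact ⟨C x, (natDegree_C _).le, by simp⟩
  | add x y i _ _ hx hy =>
    obtain ⟨P, h1, h2⟩ := hx
    obtain ⟨Q, h3, h4⟩ := hy
    exact ⟨P + Q, natDegree_add_le_of_degree_le h1 h3, by
      rw [AddMemClass.coe_add, h2, h4, map_add, mul_add]⟩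
  | mem_mul m hm i x _ hx =>
    obtain ⟨P, h1, h2⟩ := hx
    obtain ⟨a, rfl⟩ := Ideal.mem_span_range_iff_exists_fun.1 hm
    refine ⟨(C (a 1) * X + C (a 0)) * P, natDegree_mul_le.trans (by
      have := natDegree_linear_le (a := a 1) (b := a 0)
      omega), ?_⟩
    have := h.ne_zero 0
    simp only [Fin.sum_univ_two, map_add, map_mul, aeval_C, aeval_X, Subalgebra.algebraMap_apply,
      MulMemClass.coe_mul, AddMemClass.coe_add, h2, Coords.el, pow_succ]
    field_simp
    ring

/-- residues of the values, for any residue map `π` on a subring `S` -/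
theorem red_aeval (r : O →ₐ[ℂ] K) (al : K →ₐ[ℂ] L) (S : Subring F) (π : F → L)
    (h1 : ∀ a ∈ S, ∀ b ∈ S, π (a + b) = π a + π b) (h2 : ∀ a ∈ S, ∀ b ∈ S, π (a * b) = π a * π b)
    (hO : ∀ x : O, (x : F) ∈ S ∧ π x = al (r x)) {u : F} (hu : u ∈ S) (P : O[X]) :
    aeval u P ∈ S ∧ π (aeval u P) = aevalTower al (π u) (P.map (r : O →+* K)) := by
  induction P using Polynomial.induction_on with
  | C a => simpa using hO a
  | add p q hp hq =>
    rw [map_add, h1 _ hp.1 _ hq.1, hp.2, hq.2, Polynomial.map_add, map_add]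
    exact ⟨add_mem hp.1 hq.1, rfl⟩
  | monomial n a h =>
    rw [pow_succ, ← mul_assoc, map_mul, aeval_X, h2 _ h.1 _ hu, h.2, Polynomial.map_mul _ (q := X),
      map_mul (aevalTower al (π u)), map_X, aevalTower_X]
    exact ⟨mul_mem h.1 hu, rfl⟩

theorem der_aeval {σ B : Type} [Fintype σ] [CommRing B] [Algebra ℂ B] (D : Derivation ℂ B B)
    (η : σ → B) (q : MvPolynomial σ ℂ) : D (MvPolynomial.aeval η q) =
      ∑ i, MvPolynomial.aeval η (MvPolynomial.pderiv i q) * D (η i) := by
  classical
  induction q using MvPolynomial.induction_on with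
  | C a => simp
  | add p q hp hq => simp [hp, hq, add_mul, Finset.sum_add_distrib]
  | mul_X p i hp =>
    simp only [map_mul, MvPolynomial.aeval_X, Derivation.leibniz, hp, smul_eq_mul, map_add,
      MvPolynomial.pderiv_X, add_mul, Finset.sum_add_distrib, Finset.mul_sum, mul_assoc]
    congr 1
    rw [Finset.sum_eq_single i (by simp +contextual [eq_comm]) (by simp)]
    simp

theorem der_pol {R : Type} [CommRing R] [Algebra ℂ R] [Algebra R F] (d : Fin 2 → Derivation ℂ R R)
    (d' : Fin 2 → Derivation ℂ F F) (h : ∀ l a, d' l (algebraMap R F a) = algebraMap R F (d l a))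
    {u : F} (hu : (d' 0 + u • d' 1) u = 0) : ∃ D : Derivation ℂ R[X] R[X],
      (∀ P, (D P).natDegree ≤ P.natDegree + 1) ∧
      ∀ P, (d' 0 + u • d' 1) (aeval u P) = aeval u (D P) := by
  let e : Fin 2 → Derivation ℂ R[X] R[X] := fun l =>
    PolynomialModule.equivPolynomialSelf.compDer (d l).mapCoeffs
  have h3 : ∀ l P i, (e l P).coeff i = d l (P.coeff i) := fun _ _ _ => rfl
  have h4 : ∀ l P, (e l P).natDegree ≤ P.natDegree := fun l P =>
    natDegree_le_iff_coeff_eq_zero.2 fun i hi => by
      rw [h3, coeff_eq_zero_of_natDegree_lt hi, map_zero]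
  have h5 : ∀ l a, e l (C a) = C (d l a) := fun l a => by
    ext i
    rw [h3, coeff_C, coeff_C]
    split_ifs <;> simp
  have h6 : ∀ l, e l X = 0 := fun l => by
    ext i
    rw [h3, coeff_X]
    split_ifs <;> simp
  refine ⟨e 0 + (X : R[X]) • e 1, fun P => ?_, fun P => ?_⟩
  · refine natDegree_add_le_of_degree_le ((h4 0 P).trans (Nat.le_succ _))
      (natDegree_mul_le.trans ?_)
    rw [add_comm]
    exact add_le_add (h4 1 P) natDegree_X_le
  · induction P using Polynomial.induction_on with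
    | C a => simp [h5, h, mul_comm u]
    | add p q hp hq => rw [map_add, map_add, hp, hq, map_add, map_add]
    | monomial n a h =>
      rw [pow_succ, ← mul_assoc, map_mul, aeval_X, Derivation.leibniz, Derivation.leibniz, h, hu]
      simp [h6]

/-- the derivative along `t 0` for fixed `u` -/
theorem exists_der (h : Coords O t) : ∃ (D : Derivation ℂ O[X] O[X]) (D' : Derivation ℂ F F),
    D' (t 0) = 1 ∧ (∀ P, (D P).natDegree ≤ P.natDegree + 1) ∧
      ∀ P, D' (aeval (t 1 / t 0) P) = aeval (t 1 / t 0) (D P) := by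
  obtain ⟨d, h1, h2⟩ := h.der
  have h0 := h.ne_zero 0
  obtain ⟨D, hD⟩ := der_pol (fun l => resDer O (d l) (h1 l)) d (fun _ _ => rfl) (u := t 1 / t 0) (by
    simp only [Derivation.add_apply, Derivation.smul_apply, Derivation.leibniz_div, h2]
    simp
    field_simp
    simp)
  exact ⟨D, _, by simp [h2], hD⟩

variable {J : Type} [Fintype J] [DecidableEq J] {io : J → Type} [∀ j, Fintype (io j)]
  [∀ j, DecidableEq (io j)] {A : Type} [Fintype A]

theorem pf_map (r : O →ₐ[ℂ] K) (g : (j : J) → io j → O[X]) (q : MvPolynomial (Vr io) ℂ) :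
    pf (fun j i => (g j i).map (r : O →+* K)) q =
      (MvPolynomial.aeval (fun v : Vr io => g v.1 v.2) q).map (r : O →+* K) :=
  (DFunLike.congr_fun (MvPolynomial.comp_aeval (fun v : Vr io => g v.1 v.2) (mapAlgHom r)) q).symm

theorem pv_aeval (u : F) (g : (j : J) → io j → O[X]) (q : MvPolynomial (Vr io) ℂ) :
    pv (fun j i => aeval u (g j i)) q =
      aeval u (MvPolynomial.aeval (fun v : Vr io => g v.1 v.2) q) :=
  (DFunLike.congr_fun (MvPolynomial.comp_aeval (fun v : Vr io => g v.1 v.2)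
    ((aeval u : O[X] →ₐ[O] F).restrictScalars ℂ)) q).symm

/-- relations reduce -/
theorem pf_red (h : Coords O t) (r : O →ₐ[ℂ] K) (hr : ∀ l, r (h.el l) = 0)
    {g : (j : J) → io j → O[X]} {q : MvPolynomial (Vr io) ℂ}
    (hq : pv (fun j i => aeval (t 1 / t 0) (g j i)) q = 0) :
    pf (fun j i => (g j i).map (r : O →+* K)) q = 0 := by
  rw [pf_map]
  exact red_zero h r hr ((pv_aeval _ g q).symm.trans hq)

/-- **construction of the normal direction**: `q` vanishes to order one along the divisor -/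
theorem tan_of_coords (h : Coords O t) (r : O →ₐ[ℂ] K) (hr : ∀ l, r (h.el l) = 0) {T : Tgt io A}
    {d : J → ℕ} {g : (j : J) → io j → O[X]} (hg : ∀ j i, (g j i).natDegree ≤ d j)
    (on : T.On fun j i => aeval (t 1 / t 0) (g j i)) {q : MvPolynomial (Vr io) ℂ} {κ : J → ℕ}
    (hq : MH q κ) {w : O[X]}
    (hw : pv (fun j i => aeval (t 1 / t 0) (g j i)) q = t 0 * aeval (t 1 / t 0) w)
    (h0 : w.map (r : O →+* K) ≠ 0) : Tan T d fun j i => (g j i).map (r : O →+* K) := by
  obtain ⟨D, D', h1, h2, h3⟩ := exists_der h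
  have h4 : ∀ p : MvPolynomial (Vr io) ℂ, ∑ v, pf (fun j i => (g j i).map (r : O →+* K))
      (MvPolynomial.pderiv v p) * (D (g v.1 v.2)).map (r : O →+* K) =
      (D (MvPolynomial.aeval (fun v : Vr io => g v.1 v.2) p)).map (r : O →+* K) := fun p => by
    simp only [der_aeval, pf_map, Polynomial.map_sum, Polynomial.map_mul]
  have h5 : (C (h.el 0)).map (r : O →+* K) = 0 := by rw [map_C, RingHom.coe_coe, hr, C_0]
  rw [pv_aeval] at hw
  refine ⟨fun v => (D (g v.1 v.2)).map (r : O →+* K), fun v => natDegree_map_le.trans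
    ((h2 _).trans (Nat.succ_le_succ (hg _ _))), fun a => ?_, q, κ, hq, ?_, ?_⟩
  · rw [h4]
    exact red_zero h r hr (by rw [← h3, ← pv_aeval, on a, map_zero])
  · have h6 := red_zero h r hr (P := MvPolynomial.aeval (fun v : Vr io => g v.1 v.2) q -
      C (h.el 0) * w) (by rw [map_sub, hw, map_mul, aeval_C]; exact sub_self _)
    rwa [Polynomial.map_sub, Polynomial.map_mul, h5, zero_mul, sub_zero, ← pf_map] at h6
  · have h6 := red_zero h r hr (P := D (MvPolynomial.aeval (fun v : Vr io => g v.1 v.2) q) -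
      (C (h.el 0) * D w + w)) (by
        rw [map_sub, ← h3, hw, Derivation.leibniz, h1, h3, map_add, map_mul, aeval_C, smul_eq_mul,
          smul_eq_mul, mul_one]
        exact sub_self _)
    rw [Polynomial.map_sub, Polynomial.map_add, Polynomial.map_mul, h5, zero_mul, zero_add,
      sub_eq_zero] at h6
    rwa [h4, h6]

/-- the case of a coordinate: `g v₀ (u) = t 0 · w(u)` -/
theorem tan_of_crd (h : Coords O t) (r : O →ₐ[ℂ] K) (hr : ∀ l, r (h.el l) = 0) {T : Tgt io A}
    {d : J → ℕ} {g : (j : J) → io j → O[X]} (hg : ∀ j i, (g j i).natDegree ≤ d j)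
    (on : T.On fun j i => aeval (t 1 / t 0) (g j i)) (v : Vr io) {w : O[X]}
    (hw : aeval (t 1 / t 0) (g v.1 v.2) = t 0 * aeval (t 1 / t 0) w)
    (h0 : w.map (r : O →+* K) ≠ 0) : Tan T d fun j i => (g j i).map (r : O →+* K) :=
  tan_of_coords h r hr hg on (q := MvPolynomial.X v)
    (MvPolynomial.isWeightedHomogeneous_X ℂ _ v) ((MvPolynomial.aeval_X _ v).trans hw) h0

end Crest.Agent.X262.EndsMk
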