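import Crest.Agent.X262.Ends.Defs
import Crest.Agent.X262.Node22.Alg
import Crest.Agent.R273.FG_259

/-!
# Row 262, road B, ENDS-MK (helper62), part 1: forms of a point over a rational function field

* `Rt al u`      : `L = K(u)` with `u` transcendental;
* `Fm al u y d f`: `y = c · f(u)` with coprime forms `f` of multidegree `d`; `exists_forms`;
* `Fm.le`, `Fm.zero_iff`, `Fm.one`, `Fm.of_le`, `Fm.rel` : the degrees, the relations;
* `line_of`, `line_of_gen` : construction of `Ends.Line`.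
-/

set_option autoImplicit false
set_option linter.unusedSectionVars false
set_option linter.style.haveILetI false

noncomputable section

namespace Crest.Agent.X262.EndsMk

open Crest.Agent.X277 Crest.Agent.X277.BD Polynomial
open Crest.Agent.X262.Vb Crest.Agent.X262.Ends
open IntermediateField (adjoin)
open Set (range)

variable {K L : Type} [Field K] [Algebra ℂ K] [Field L] [Algebra ℂ L] {al : K →ₐ[ℂ] L} {u : L}

/-- `L` is the field of rational functions in `u` over `K` -/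
structure Rt (al : K →ₐ[ℂ] L) (u : L) : Prop where
  inj : ∀ g : K[X], aevalTower al u g = 0 → g = 0
  gen : adjoin ℂ (range al ∪ {u}) = ⊤

theorem adjoin_top (h : adjoin ℂ (range al ∪ {u}) = ⊤) :
    letI := al.toRingHom.toAlgebra; adjoin K {u} = ⊤ := by
  letI := al.toRingHom.toAlgebra
  haveI : IsScalarTower ℂ K L := IsScalarTower.of_algebraMap_eq fun c => (al.commutes c).symm
  rw [← IntermediateField.restrictScalars_eq_top_iff (K := ℂ)]
  refine top_unique (h ▸ IntermediateField.adjoin_le_iff.2 ?_)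
  rintro _ (⟨x, rfl⟩ | rfl)
  · exact (adjoin K _).algebraMap_mem x
  · exact IntermediateField.mem_adjoin_simple_self K _

theorem Rt.injective (h : Rt al u) : Function.Injective (aevalTower al u) :=
  (injective_iff_map_eq_zero _).2 h.inj

theorem Rt.frac (h : Rt al u) (z : L) :
    ∃ g g' : K[X], g' ≠ 0 ∧ z * aevalTower al u g' = aevalTower al u g := by
  letI := al.toRingHom.toAlgebra
  obtain ⟨g, g', rfl⟩ := (IntermediateField.mem_adjoin_simple_iff K z).1
    (adjoin_top h.gen ▸ IntermediateField.mem_top)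
  by_cases h0 : g' = 0
  · exact ⟨0, 1, one_ne_zero, by simp [h0]⟩
  · exact ⟨g, g', h0, div_mul_cancel₀ _ (mt (h.inj g') h0)⟩

theorem rt_of_alg [Algebra K L] [IsScalarTower ℂ K L] (h : Transcendental K u)
    (h' : adjoin K {u} = ⊤) : Rt (IsScalarTower.toAlgHom ℂ K L) u := by
  refine ⟨transcendental_iff.1 h, top_unique fun z _ => ?_⟩
  have h1 : z ∈ adjoin K {u} := h' ▸ IntermediateField.mem_top
  induction h1 using IntermediateField.adjoin_induction with
  | mem x hx => exact IntermediateField.subset_adjoin _ _ (Or.inr hx)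
  | algebraMap x => exact IntermediateField.subset_adjoin _ _ (Or.inl ⟨x, rfl⟩)
  | add x y _ _ hx hy => exact add_mem (hx trivial) (hy trivial)
  | inv x _ hx => exact inv_mem (hx trivial)
  | mul x y _ _ hx hy => exact mul_mem (hx trivial) (hy trivial)

theorem rt_ratFunc : Rt (IsScalarTower.toAlgHom ℂ K (RatFunc K)) RatFunc.X :=
  rt_of_alg RatFunc.transcendental_X RatFunc.adjoin_X

theorem Rt.equiv {L' : Type} [Field L'] [Algebra ℂ L'] (h : Rt al u) (e : L ≃ₐ[ℂ] L') :
    Rt (e.toAlgHom.comp al) (e u) := by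
  refine ⟨fun g hg => h.inj g (e.injective ?_), ?_⟩
  · rw [map_zero, ← hg]
    exact DFunLike.congr_fun (show e.toAlgHom.comp (aevalTower al u) =
      aevalTower (e.toAlgHom.comp al) (e u) by ext <;> simp) g
  · have h1 := congrArg (IntermediateField.map e.toAlgHom) h.gen
    rw [IntermediateField.adjoin_map, Set.image_union, Set.image_singleton, ← Set.range_comp,
      ← AlgHom.fieldRange_eq_map, AlgHom.fieldRange_eq_top.2 e.surjective] at h1
    exact h1

section Dim

variable [Algebra.EssFiniteType ℂ K] [Algebra.EssFiniteType ℂ L]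

theorem rt_of_dim (h : adjoin ℂ (range al ∪ {u}) = ⊤) (hd : dim ℂ K < dim ℂ L) : Rt al u := by
  refine ⟨fun g hg => by_contra fun h0 => ?_, h⟩
  letI := al.toRingHom.toAlgebra
  have h1 := IntermediateField.adjoin.finiteDimensional (IsAlgebraic.isIntegral ⟨g, h0, hg⟩)
  rw [adjoin_top h] at h1
  have h2 : Module.Finite K L := Module.Finite.equiv IntermediateField.topEquiv.toLinearEquiv
  exact hd.ne' ((deg_pos_iff al).1 Module.finrank_pos)

theorem Rt.dim (h : Rt al u) : dim ℂ L = dim ℂ K + 1 := by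
  letI := al.toRingHom.toAlgebra
  haveI : IsScalarTower ℂ K L := IsScalarTower.of_algebraMap_eq fun c => (al.commutes c).symm
  have h1 : IsTranscendenceBasis K ![u] :=
    (algebraicIndependent_iff_transcendental.2
      (transcendental_iff.2 h.inj)).isTranscendenceBasis_iff_isAlgebraic.2 (by
      rw [← IntermediateField.isAlgebraic_adjoin_iff_top, Matrix.range_cons_empty, adjoin_top h.gen]
      infer_instance)
  have h2 := trdeg_add_eq ℂ K (A := L)
  have h3 := h1.lift_cardinalMk_eq_trdeg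
  rw [Cardinal.mk_fin, Cardinal.lift_natCast, Cardinal.lift_id] at h3
  rw [← h3, trdeg_eq_dim, trdeg_eq_dim] at h2
  exact_mod_cast h2.symm

theorem dim_sub_le (S : IntermediateField ℂ L) (h : ∀ x ∈ S, x ∈ range al) : dim ℂ S ≤ dim ℂ K := by
  have := R273.FG_259.essFiniteType_of_le S
  exact dim_le ((AlgEquiv.ofInjectiveField al).symm.toAlgHom.comp
    (Subalgebra.inclusion (S := S.toSubalgebra) h))

/-- the ratios of `s` lie in the image of `K` -/
theorem dim_qf_le {ι : Type} {s : ι → L} (h : ∀ i i', s i / s i' ∈ range al) :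
    dim ℂ (qf ℂ s) ≤ dim ℂ K :=
  dim_sub_le _ (IntermediateField.adjoin_le_iff (T := al.fieldRange).2 (by
    rintro _ ⟨i, j, rfl⟩
    exact h j i))

end Dim

theorem exists_form (h : Rt al u) {ι : Type} [Fintype ι] {s : ι → L} (h0 : ∃ i, s i ≠ 0) :
    ∃ (n : ℕ) (f : ι → K[X]) (c : L), c ≠ 0 ∧ (∀ i, (f i).natDegree ≤ n) ∧
      (∃ i, (f i).coeff n ≠ 0) ∧ Ideal.span (range f) = ⊤ ∧
      ∀ i, s i = c * aevalTower al u (f i) := by
  classical
  choose g g' h1 h2 using fun i => h.frac (s i)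
  let G : ι → K[X] := fun i => g i * ∏ l ∈ Finset.univ.erase i, g' l
  have h3 : aevalTower al u (∏ l, g' l) ≠ 0 :=
    mt (h.inj _) (Finset.prod_ne_zero_iff.2 fun l _ => h1 l)
  have h4 : ∀ i, s i * aevalTower al u (∏ l, g' l) = aevalTower al u (G i) := fun i => by
    rw [← Finset.mul_prod_erase _ _ (Finset.mem_univ i), map_mul, ← mul_assoc, h2, map_mul]
  obtain ⟨e, he⟩ := (IsPrincipalIdealRing.principal (Ideal.span (range G))).principal
  have h5 : ∀ i, ∃ f, G i = e * f := fun i =>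
    Ideal.mem_span_singleton.1 (he.le (Ideal.subset_span ⟨i, rfl⟩))
  choose f hf using h5
  have h6 : e ≠ 0 := fun h6 => by
    obtain ⟨i, hi⟩ := h0
    exact mul_ne_zero hi h3 (by rw [h4, hf, h6, zero_mul, map_zero])
  obtain ⟨a, ha⟩ := Ideal.mem_span_range_iff_exists_fun.1
    (he.ge (Ideal.mem_span_singleton_self e))
  have h7 : ∑ i, a i * f i = 1 := mul_left_cancel₀ h6 (by
    rw [mul_one, Finset.mul_sum]
    exact (Finset.sum_congr rfl fun i _ => by rw [hf, mul_left_comm]).trans ha)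
  obtain ⟨i, hi, h8⟩ := (Finset.univ.filter fun i => f i ≠ 0).exists_max_image
    (fun i => (f i).natDegree) (by
      obtain ⟨i, -, hi⟩ := Finset.exists_ne_zero_of_sum_ne_zero (h7 ▸ one_ne_zero)
      exact ⟨i, by simpa using right_ne_zero_of_mul hi⟩)
  refine ⟨(f i).natDegree, f, aevalTower al u e / aevalTower al u (∏ l, g' l),
    div_ne_zero (mt (h.inj _) h6) h3, fun l => ?_, ⟨i, by simpa using hi⟩,
    (Ideal.eq_top_iff_one _).2 (Ideal.mem_span_range_iff_exists_fun.2 ⟨a, h7⟩), fun l => ?_⟩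
  · by_cases hl : f l = 0
    · simp [hl]
    · exact h8 l (by simpa using hl)
  · rw [div_mul_eq_mul_div, ← map_mul, ← hf, ← h4, mul_div_cancel_right₀ _ h3]

variable {J : Type} [Fintype J] [DecidableEq J] {io : J → Type} [∀ j, Fintype (io j)]
  [∀ j, DecidableEq (io j)] {A : Type} [Fintype A]

/-- `y` is given by the coprime forms `f` of multidegree `d` -/
structure Fm (al : K →ₐ[ℂ] L) (u : L) (y : Pnt io L) (d : J → ℕ) (f : (j : J) → io j → K[X]) :
    Prop where
  cp : Cp d f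
  eq : ∀ j, ∃ c : L, c ≠ 0 ∧ ∀ i, y j i = c * aevalTower al u (f j i)

variable {y : Pnt io L} {d : J → ℕ} {f : (j : J) → io j → K[X]}

theorem exists_forms (h : Rt al u) (hy : NZ y) : ∃ d f, Fm al u y d f := by
  choose d f c h1 h2 h3 h4 h5 using fun j => exists_form h (hy j)
  exact ⟨d, f, ⟨h2, h3, h4⟩, fun j => ⟨c j, h1 j, h5 j⟩⟩

namespace Fm

variable (hF : Fm al u y d f) (h : Rt al u)
include hF h

theorem nz : NZ y := fun j => by
  obtain ⟨c, h1, h2⟩ := hF.eq j
  obtain ⟨i, hi⟩ := hF.cp.2.1 j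
  exact ⟨i, h2 i ▸ mul_ne_zero h1 (mt (h.inj _) fun h0 => hi (by simp [h0]))⟩

/-- any other representation is a multiple -/
theorem dvd {j : J} {c : L} {g : io j → K[X]} (hg : ∀ i, y j i = c * aevalTower al u (g i)) :
    ∃ e : K[X], e ≠ 0 ∧ ∀ i, g i = e * f j i := by
  obtain ⟨c', h1, h2⟩ := hF.eq j
  obtain ⟨a, ha⟩ := Ideal.mem_span_range_iff_exists_fun.1 ((Ideal.eq_top_iff_one _).1 (hF.cp.2.2 j))
  have h3 : c' = c * aevalTower al u (∑ i, a i * g i) := by
    rw [← mul_one c', ← map_one (aevalTower al u), ← ha, map_sum, map_sum, Finset.mul_sum,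
      Finset.mul_sum]
    refine Finset.sum_congr rfl fun i _ => ?_
    rw [map_mul, map_mul, mul_left_comm, ← h2, hg, mul_left_comm]
  refine ⟨∑ i, a i * g i, fun h0 => h1 (by rw [h3, h0, map_zero, mul_zero]), fun i =>
    h.injective (mul_left_cancel₀ (left_ne_zero_of_mul (h3 ▸ h1)) ?_)⟩
  rw [map_mul, ← mul_assoc, ← h3, ← h2, hg]

/-- the degree is minimal -/
theorem le {j : J} {c : L} {g : io j → K[X]} (hg : ∀ i, y j i = c * aevalTower al u (g i))
    {n : ℕ} (hn : ∀ i, (g i).natDegree ≤ n) : d j ≤ n := by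
  obtain ⟨e, h1, h2⟩ := hF.dvd h hg
  obtain ⟨i, hi⟩ := hF.cp.2.1 j
  have h3 := hn i
  rw [h2, natDegree_mul h1 fun h0 => hi (by simp [h0])] at h3
  exact (le_natDegree_of_ne_zero hi).trans (by omega)

omit h in
theorem div_eq {j : J} (hj : d j = 0) (i i' : io j) :
    y j i / y j i' = al ((f j i).coeff 0 / (f j i').coeff 0) := by
  obtain ⟨c, h1, h2⟩ := hF.eq j
  have h3 : ∀ i, aevalTower al u (f j i) = al ((f j i).coeff 0) := fun i => by
    conv_lhs => rw [eq_C_of_natDegree_le_zero ((hF.cp.1 j i).trans hj.le), aevalTower_C]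
  rw [h2, h2, h3, h3, mul_div_mul_left _ _ h1, map_div₀]

theorem zero_iff (j : J) : d j = 0 ↔ ∀ i i', y j i / y j i' ∈ range al := by
  refine ⟨fun hj i i' => ⟨_, (hF.div_eq hj i i').symm⟩, fun h1 => ?_⟩
  obtain ⟨i₀, h0⟩ := hF.nz h j
  choose r hr using fun i => h1 i i₀
  exact Nat.le_zero.1 (hF.le h (c := y j i₀) (g := fun i => C (r i))
    (fun i => by rw [aevalTower_C, hr, mul_div_cancel₀ _ h0]) fun i => (natDegree_C _).le)

theorem one {j : J} {c : L} {g : io j → K[X]} (hg : ∀ i, y j i = c * aevalTower al u (g i))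
    (hn : ∀ i, (g i).natDegree ≤ 1) (h1 : ∃ i i', y j i / y j i' ∉ range al) : d j = 1 := by
  obtain ⟨i, i', h1⟩ := h1
  have h2 := hF.le h hg hn
  have h3 : d j ≠ 0 := fun h0 => h1 ((hF.zero_iff h j).1 h0 i i')
  omega

/-- a representation of the right degree is coprime -/
theorem of_le {g : (j : J) → io j → K[X]}
    (hg : ∀ j, ∃ c : L, ∀ i, y j i = c * aevalTower al u (g j i))
    (hn : ∀ j i, (g j i).natDegree ≤ d j) : Fm al u y d g := by
  have key : ∀ j, ∃ e : K, e ≠ 0 ∧ ∀ i, g j i = C e * f j i := fun j => by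
    obtain ⟨c, hc⟩ := hg j
    obtain ⟨e, h1, h2⟩ := hF.dvd h hc
    obtain ⟨i, hi⟩ := hF.cp.2.1 j
    have h3 := hn j i
    rw [h2, natDegree_mul h1 fun h0 => hi (by simp [h0])] at h3
    have h4 := le_natDegree_of_ne_zero hi
    rw [eq_C_of_natDegree_eq_zero (show e.natDegree = 0 by omega)] at h1 h2
    exact ⟨_, C_ne_zero.1 h1, h2⟩
  choose e h1 h2 using key
  refine ⟨⟨hn, fun j => (hF.cp.2.1 j).imp fun i hi => ?_, fun j => top_unique
    (hF.cp.2.2 j ▸ Ideal.span_le.2 ?_)⟩, fun j => (hg j).imp fun c hc => ⟨fun h0 => ?_, hc⟩⟩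
  · rw [h2, coeff_C_mul]
    exact mul_ne_zero (h1 j) hi
  · rintro _ ⟨i, rfl⟩
    have h3 := Ideal.mul_mem_left _ (C (e j)⁻¹) (Ideal.subset_span (s := range (g j)) ⟨i, rfl⟩)
    rwa [h2, ← mul_assoc, ← C_mul, inv_mul_cancel₀ (h1 j), C_1, one_mul] at h3
  · obtain ⟨i, hi⟩ := hF.nz h j
    exact hi (by rw [hc, h0, zero_mul])

/-- the relations of the forms are those of the point -/
theorem rel {q : MvPolynomial (Vr io) ℂ} {κ : J → ℕ} (hq : MH q κ) : pf f q = 0 ↔ pv y q = 0 := by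
  choose c h1 h2 using hF.eq
  have h3 : pv y q = (∏ j, c j ^ κ j) * aevalTower al u (pf f q) := by
    rw [pf, ← AlgHom.comp_apply, MvPolynomial.comp_aeval, ← Node22.mh_aeval hq, pv]
    exact congrArg (fun z => MvPolynomial.aeval z q) (funext fun v => h2 v.1 v.2)
  rw [h3, mul_eq_zero, or_iff_right (Finset.prod_ne_zero_iff.2 fun j _ => pow_ne_zero _ (h1 j))]
  exact (map_eq_zero_iff _ h.injective).symm

end Fm

theorem tree_nz {T : Tgt io A} {M E : Type} [Field E] [Algebra ℂ E] {z : M → Pnt io E}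
    (h : TreePts T d z) (q : M) : NZ (z q) := fun j => by
  obtain ⟨L, _, _, _, α, t, x, c, h1, -, -, h4, h5⟩ := h
  obtain ⟨i, hi⟩ := nz_ev t h1 (x q) j
  exact ⟨i, fun h0 => mul_ne_zero (h4 q j) hi (by rw [← h5, h0, map_zero])⟩

theorem tree_on {T : Tgt io A} {M E : Type} [Field E] [Algebra ℂ E] {z : M → Pnt io E}
    (h : TreePts T d z) (q : M) : T.On (z q) := fun a => by
  obtain ⟨L, _, _, _, α, t, x, c, -, -, h3, -, h5⟩ := h
  refine α.injective ?_
  change α (pv _ _) = α 0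
  rw [map_zero, pv, ← AlgHom.comp_apply, MvPolynomial.comp_aeval]
  simp only [h5]
  exact (Node22.mh_aeval (T.hom a) (c q) _).trans (mul_eq_zero_of_right _ (h3 (x q) a))

variable [Algebra.EssFiniteType ℂ K] [Algebra.EssFiniteType ℂ L] {T : Tgt io A} {ν : J → ℕ} {j₁ : J}

/-- **construction of a line** from the generic point `y` of the swept variety -/
theorem line_of (hF : Fm al u y d f) (h : Rt al u) (one : d j₁ = 1) (on : T.On y)
    (hb : ∀ j, ν j ≠ 0 → ∀ i i', y j i / y j i' ∈ range al) (hg : ∀ x, al x ∈ bas ν y)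
    (dm : dim ℂ K = ∑ j, ν j) (dj : ∀ j, ν j ≠ 0 → dim ℂ (qf ℂ (y j)) ≤ ν j)
    (sw : ∀ q κ, MH q κ → pv y q = 0 → ∀ (E : Type) [Field E] [Algebra ℂ E] (z : Pnt io E),
      TreePts T d (fun _ : Unit => z) → pv z q = 0) : Line T d ν j₁ f := by
  have h0 : ∀ j, ν j ≠ 0 → d j = 0 := fun j hj => (hF.zero_iff h j).2 (hb j hj)
  refine ⟨hF.cp, one, h0, fun a => (hF.rel h (T.hom a)).2 (on a), top_unique fun x _ => ?_, dm,
    fun j hj => le_trans ?_ (dj j hj), fun q κ hq h1 => sw q κ hq ((hF.rel h hq).1 h1)⟩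
  · have h1 : bas ν y ≤ (bas ν fun j i => (f j i).coeff 0).map al :=
      IntermediateField.adjoin_le_iff.2 (by
        rintro _ ⟨j, i, i', hj, rfl⟩
        exact ⟨_, IntermediateField.subset_adjoin _ _ ⟨j, i, i', hj, rfl⟩,
          (hF.div_eq (h0 j hj) i i').symm⟩)
    obtain ⟨x', h2, h3⟩ := h1 (hg x)
    exact al.injective h3 ▸ h2
  · have h1 : (qf ℂ fun i => (f j i).coeff 0) ≤ (qf ℂ (y j)).comap al :=
      IntermediateField.adjoin_le_iff.2 (by
        rintro _ ⟨i, i', rfl⟩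
        change al _ ∈ qf ℂ (y j)
        exact hF.div_eq (h0 j hj) i' i ▸ div_mem_qf _ _ _)
    have := R273.FG_259.essFiniteType_of_le (qf ℂ fun i => (f j i).coeff 0)
    have := R273.FG_259.essFiniteType_of_le (qf ℂ (y j))
    exact dim_le ((al.comp (IntermediateField.val _)).codRestrict (qf ℂ (y j)).toSubalgebra
      fun x => h1 x.2)

/-- the lines fill the target -/
theorem line_of_gen {c : ℕ} (hy : GenPt T c y) (h : Rt al u) {e : L} {g : io j₁ → K[X]}
    (h1 : ∀ i, y j₁ i = e * aevalTower al u (g i)) (h2 : ∀ i, (g i).natDegree ≤ 1)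
    (h3 : ∃ i i', y j₁ i / y j₁ i' ∉ range al)
    (hb : ∀ j, ν j ≠ 0 → ∀ i i', y j i / y j i' ∈ range al) (hg : ∀ x, al x ∈ bas ν y)
    (dm : dim ℂ K = ∑ j, ν j) (dj : ∀ j, ν j ≠ 0 → dim ℂ (qf ℂ (y j)) ≤ ν j) :
    ∃ d f, Fm al u y d f ∧ Line T d ν j₁ f ∧ ∑ j, ν j + 1 + c = adim io := by
  obtain ⟨d, f, hF⟩ := exists_forms h hy.nz
  exact ⟨d, f, hF, line_of hF h (hF.one h h1 h2 h3) hy.on hb hg dm dj fun q κ hq h0 E _ _ z hz =>
    hy.irr q κ hq h0 E z (tree_nz hz ()) (tree_on hz ()), by rw [← dm, ← h.dim, hy.dm]⟩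

end Crest.Agent.X262.EndsMk
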